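import Vale.Agent.Lib.P031.Main

/-!
# P031: structure of the Erdos-Hall ratio question for the values of Euler's function

`V x` counts the values of Euler's function up to `x`, and `Nn x` counts the integers
`x / 2 < n ≤ x` that are not values although `2 n` is a value.

* The set of values is closed under doubling, and all values above `1` are even; this gives the
  exact second difference identity `V (2x) + V (x/2) = 2 V x + Nn x`.
* Hence `r x = V (2x) / V x` satisfies `r x = 2 + Nn x / V x - 1 / r (x/2)`; the map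
  `r ↦ 5/2 - 1/r` contracts towards `2` on `[1, ∞)`, so `V (2x) / V x → 2` if and only if
  `Nn x / V x → 1/2`.
* `π(x) ≤ V x ≤ x` and Chebyshev's bound show that `V (c x) / V x` can neither stay below a
  number `< c` nor above a number `> c`.  So the only possible limit is `c`, and, through the
  recursion, `1/2` lies between the lower and the upper limit of `Nn x / V x`.
* By monotonicity of `V` and density of the numbers `2 ^ a 3 ^ b`, the ratios `2` and `3` decide
  all ratios.
-/

open Filter Topology

namespace Vale.Agent.Results.P031.ErdosHallStructure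

open Vale.Agent.Lib.P031

theorem result :
    (∀ v : ℕ, IsTotientValue v → IsTotientValue (2 * v)) ∧
    (∀ x : ℝ, 1 ≤ x → V (2 * x) + V (x / 2) = 2 * V x + Nn x) ∧
    (ErdosHall 2 ↔ Tendsto (fun x : ℝ => (Nn x : ℝ) / (V x : ℝ)) atTop (𝓝 (1 / 2))) ∧
    (∀ η : ℝ, 0 < η → (∃ᶠ x in atTop, 1 / 2 - η < (Nn x : ℝ) / (V x : ℝ)) ∧
      (∃ᶠ x in atTop, (Nn x : ℝ) / (V x : ℝ) < 1 / 2 + η)) ∧
    (∀ c L : ℝ, 1 < c →
      Tendsto (fun x : ℝ => (V (c * x) : ℝ) / (V x : ℝ)) atTop (𝓝 L) → L = c) ∧
    ((ErdosHall 2 ∧ ErdosHall 3) ↔ ∀ c : ℝ, 1 < c → ErdosHall c) :=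
  ⟨fun _ h => isTotientValue_two_mul h, fun _ hx => second_difference hx, erdosHall_two_iff,
    fun _ hη => ⟨frequently_nu_gt hη, frequently_nu_lt hη⟩, fun _ _ hc h => limit_eq hc h,
    erdosHall_all_iff⟩

end Vale.Agent.Results.P031.ErdosHallStructure
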